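import Vale.Agent.P207.H734.GaugeG
import Vale.Agent.P207.H379.KatB
import Vale.Agent.P207.H571.L2Sys
import Vale.Agent.P207.H955.SobN

/-!
# P207, row (R5): the gauge for the frame calculus of a locally symmetric metric
-/

open scoped Manifold ContDiff ENNReal Topology
open Bundle MeasureTheory Set Filter Topology

noncomputable section

set_option maxSynthPendingDepth 3
set_option linter.unusedSectionVars false

namespace Vale.Agent.P207.H734

open Vale.Agent.P255 (RMetric coefIn Gam Riem innerAt)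
open Vale.Agent.P207 Vale.Agent.P207.Q Vale.Agent.P207.H442

section NS

open H395 H571

variable {ι : Type} [Fintype ι] {N : Type} [TopologicalSpace N] [CompactSpace N]
  [MeasurableSpace N] [BorelSpace N] {μ : Measure N} [IsFiniteMeasure μ]

theorem l2_eq_norm (S : NSys ι N μ) (f : S.A) : S.l2 f = ‖toL μ (f : C(N, ℝ))‖ := by
  rw [NSys.l2, ← Real.sqrt_sq (norm_nonneg (toL μ (f : C(N, ℝ)))),
    ← real_inner_self_eq_norm_sq, inner_toL]
  simp only [pow_two]

theorem hN_add (S : NSys ι N μ) (s : ℕ) (u v : S.A) : S.hN s (u + v) ≤ S.hN s u + S.hN s v := by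
  induction s generalizing u v with
  | zero =>
    change S.l2 (u + v) ≤ S.l2 u + S.l2 v
    rw [l2_eq_norm, l2_eq_norm, l2_eq_norm]
    refine le_trans (le_of_eq ?_) (norm_add_le _ _)
    rw [← map_add]; rfl
  | succ s ih =>
    change S.hN s (u + v) + ∑ a, S.hN s (S.X a (u + v)) ≤
      (S.hN s u + ∑ a, S.hN s (S.X a u)) + (S.hN s v + ∑ a, S.hN s (S.X a v))
    have h1 : ∑ a, S.hN s (S.X a (u + v)) ≤ ∑ a, S.hN s (S.X a u) + ∑ a, S.hN s (S.X a v) := by
      rw [← Finset.sum_add_distrib]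
      refine Finset.sum_le_sum fun a _ => ?_
      rw [map_add]
      exact ih _ _
    have h2 := ih u v
    linarith

theorem hN_smul (S : NSys ι N μ) (s : ℕ) (c : ℝ) (u : S.A) :
    S.hN s (c • u) = |c| * S.hN s u := by
  induction s generalizing u with
  | zero =>
    change S.l2 (c • u) = |c| * S.l2 u
    rw [l2_eq_norm, l2_eq_norm, ← Real.norm_eq_abs, ← norm_smul, ← map_smul]
    rfl
  | succ s ih =>
    change S.hN s (c • u) + ∑ a, S.hN s (S.X a (c • u)) =
      |c| * (S.hN s u + ∑ a, S.hN s (S.X a u))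
    rw [ih, mul_add, Finset.mul_sum]
    congr 1
    refine Finset.sum_congr rfl fun a _ => ?_
    rw [Derivation.map_smul, ih]

end NS

variable {n : ℕ} {M : Type} [TopologicalSpace M] [ChartedSpace (EV n) M]
  [IsManifold 𝓘(ℝ, EV n) ∞ M] {g : RMetric (EV n) M}
variable [NeZero n] [CompactSpace M] [T2Space M] [MeasurableSpace M] [BorelSpace M]
  (D : Kat.Dat g)

/-- the integral is positive definite -/
theorem iPos_I : IPos D.I where
  nonneg f := integral_nonneg fun p => mul_self_nonneg _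
  eq_zero f h := by
    have h1 : Continuous fun p => (f : C(Fr g, ℝ)) p * (f : C(Fr g, ℝ)) p :=
      (f : C(Fr g, ℝ)).continuous.mul (f : C(Fr g, ℝ)).continuous
    have h2 : (fun p => (f : C(Fr g, ℝ)) p * (f : C(Fr g, ℝ)) p) =ᵐ[D.mP] 0 := by
      rw [← integral_eq_zero_iff_of_nonneg (fun p => mul_self_nonneg _)]
      · exact h
      · exact h1.integrable_of_hasCompactSupport (HasCompactSupport.of_compactSpace _)
    have h3 := (h1.ae_eq_iff_eq D.mP continuous_zero).1 h2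
    apply Subtype.ext
    ext p
    exact mul_self_eq_zero.1 (congrFun h3 p)

variable [Nonempty (Fr g)]

theorem isInt_I : (frCalc g).IsInt D.I := isInt_intF D.hP D.hφ D.hmp

theorem nAx_h : NAx (frCalc g) D.h where
  nonneg s u := H955.hN_nonneg D.S s u
  add s u v := hN_add D.S s u v
  smul s c u := hN_smul D.S s c u
  mono s u := H955.hN_le_succ D.S s u
  hor s i u := H955.hN_X_le D.S s (.inl i) u

/-- **the gauge** on the frame bundle, from the two inverses -/
theorem gauge_fr {c₀ : ℝ} (hP : (frCalc g).Par) (hE : Ein (frCalc g) c₀) (hc : 0 < c₀)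
    (hs0 : Solv0 (frCalc g) D.h c₀) (hs1 : Solv1 (frCalc g) D.h (2 * c₀)) :
    ∃ Cg : ℕ → ℝ, (∀ s, 0 ≤ Cg s) ∧ ∀ k : Fin n → Fin n → SmFr g, Kat.GT2 k →
      ∃ w : Fin n → SmFr g, Kat.GT1 w ∧ (∀ s, 2 ≤ s → D.hV (s + 1) w ≤ Cg s * D.hT s k) ∧
        ∀ j, Kat.divf (frCalc g) (fun i j => k i j + Kat.Lf (frCalc g) w i j) j = 0 := by
  obtain ⟨K, hK0, hK⟩ := exists_gauge hP (isInt_I D) (iPos_I D) hE hc (nAx_h D) hs0 hs1
  refine ⟨fun s => n * K (s - 2), fun s => mul_nonneg (Nat.cast_nonneg _) (hK0 _), fun k hk => ?_⟩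
  obtain ⟨w, hw, hwe, hwn⟩ := hK k (H379.t2_of_GT2 hk)
  refine ⟨w, ?_, fun s hs => ?_, hwe⟩
  · rw [H379.gT1_iff', H379.OnAct.gt1_iff]
    intro B hB
    exact g1_gauge (H379.rotAct g) (isInt_I D) (iPos_I D) hE hc hw hwe B
      (((H379.OnAct.gt2_iff (H379.rotAct g) univ k).1 (H379.gT2_iff'.1 hk).2) B hB)
  · obtain ⟨t, rfl⟩ : ∃ t, s = t + 2 := ⟨s - 2, by omega⟩
    calc D.hV (t + 2 + 1) w ≤ ∑ _i : Fin n, K t * D.hT (t + 2) k :=
          Finset.sum_le_sum fun i _ => hwn t i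
      _ = n * K (t + 2 - 2) * D.hT (t + 2) k := by
          rw [Finset.sum_const, Finset.card_univ, Fintype.card_fin, nsmul_eq_mul, mul_assoc]
          rfl

/-- **GAUGE** for a negatively curved locally symmetric metric, from the two inverses -/
theorem exists_gauge_fr [ConnectedSpace M] (hn : 2 ≤ n) (h : NegCurvature g)
    (hs : LocSymmetric g)
    (hs0 : ∀ c₀ : ℝ, 0 < c₀ → Solv0 (frCalc g) D.h c₀)
    (hs1 : ∀ c₀ : ℝ, 0 < c₀ → Ein (frCalc g) c₀ → Solv1 (frCalc g) D.h (2 * c₀)) :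
    ∃ Cg : ℕ → ℝ, (∀ s, 0 ≤ Cg s) ∧ ∀ k : Fin n → Fin n → SmFr g, Kat.GT2 k →
      ∃ w : Fin n → SmFr g, Kat.GT1 w ∧ (∀ s, 2 ≤ s → D.hV (s + 1) w ≤ Cg s * D.hT s k) ∧
        ∀ j, Kat.divf (frCalc g) (fun i j => k i j + Kat.Lf (frCalc g) w i j) j = 0 := by
  obtain ⟨c₀, hc, hE⟩ := exists_einstein hn h hs
  exact gauge_fr D (par_frCalc hs) hE hc (hs0 c₀ hc) (hs1 c₀ hc hE)

end Vale.Agent.P207.H734
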