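import Vale.Agent.P207.H734.GaugeF
import Vale.Agent.P207.H734.Rep01
import Vale.Agent.P207.H440.FrLC

/-!
# P207, row (R5): GAUGE on the frame bundle of a negatively curved locally symmetric metric
-/

open scoped Manifold ContDiff ENNReal Topology
open Bundle MeasureTheory Set Filter Topology

noncomputable section

set_option maxSynthPendingDepth 3
set_option linter.unusedSectionVars false

namespace Vale.Agent.P207.H734

open Vale.Agent.P255 (RMetric coefIn Gam Riem innerAt)
open Vale.Agent.P207 Vale.Agent.P207.Q Vale.Agent.P207.H442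

variable {n : ℕ} {M : Type} [TopologicalSpace M] [ChartedSpace (EV n) M]
  [IsManifold 𝓘(ℝ, EV n) ∞ M] {g : RMetric (EV n) M}
variable [NeZero n] [CompactSpace M] [T2Space M] [MeasurableSpace M] [BorelSpace M]
  (D : Kat.Dat g) [Nonempty (Fr g)]

/-- the hypotheses of the elliptic theory hold for the frame bundle -/
theorem tData : H395.TData D.S (frCalc g) where
  cpt := ⟨fun _ _ => rfl, fun _ _ _ => rfl⟩
  loc := H440.frN_loc (horFlows g) D.hP D.hφ D.hmp
  cl := H440.frN_cl (horFlows g) D.hP D.hφ D.hmp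

theorem big0 {c : ℝ} (hc : 0 < c) : (H395.tens (tData D) (isRep0 n)).Big c := by
  refine H395.tens_big (tData D) (isRep0 n) hc fun f hf => ?_
  have h1 : ∀ f' : Unit → SmFr g, (frCalc g).T0 (f' ()) →
      c * ∑ α : Unit, D.I (f' α * f' α) ≤
        ∑ α : Unit, D.I ((c • f' α - (frCalc g).cas (f' α)) * f' α) := by
    intro f' hf'
    rw [Fintype.sum_unique, Fintype.sum_unique]
    exact coer_zero (isInt_I D) (iPos_I D) hf' c
  exact h1 f (isFam0.1 hf)

theorem big1 {c₀ c : ℝ} (hE : Ein (frCalc g) c₀) (hc : c₀ < c) :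
    (H395.tens (tData D) (isRep1 n)).Big c := by
  refine H395.tens_big (tData D) (isRep1 n) (sub_pos.2 hc) fun f hf => ?_
  exact coer_one (isInt_I D) (iPos_I D) hE (isFam1.1 hf) c

theorem solv0_fr {c : ℝ} (hc : 0 < c) : Solv0 (frCalc g) D.h c := solv0 (tData D) (big0 D hc)

theorem solv1_fr {c₀ : ℝ} (hE : Ein (frCalc g) c₀) (hc : 0 < c₀) :
    Solv1 (frCalc g) D.h (2 * c₀) := solv1 (tData D) (big1 D hE (by linarith))

/-- **GAUGE**: for every symmetric 2-tensor `k` there is a vector field `w`, with one derivative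
more, such that `k + L_w g` is divergence free -/
theorem gauge_stmt [ConnectedSpace M] (hn : 2 ≤ n) (h : NegCurvature g) (hs : LocSymmetric g) :
    ∃ Cg : ℕ → ℝ, (∀ s, 0 ≤ Cg s) ∧ ∀ k : Fin n → Fin n → SmFr g, Kat.GT2 k →
      ∃ w : Fin n → SmFr g, Kat.GT1 w ∧ (∀ s, 2 ≤ s → D.hV (s + 1) w ≤ Cg s * D.hT s k) ∧
        ∀ j, Kat.divf (frCalc g) (fun i j => k i j + Kat.Lf (frCalc g) w i j) j = 0 :=
  exists_gauge_fr D hn h hs (fun _ hc => solv0_fr D hc) fun _ hc hE => solv1_fr D hE hc

end Vale.Agent.P207.H734
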