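import Vale.Agent.P207.H734.GaugeS
import Vale.Agent.P207.H832.StepFr

/-!
# P207, row (R5): `Dat.STEPStmt` for a negatively curved locally symmetric metric
-/

open scoped Manifold ContDiff ENNReal Topology
open Bundle MeasureTheory Set Filter Topology

noncomputable section

set_option maxSynthPendingDepth 3
set_option linter.unusedSectionVars false

namespace Vale.Agent.P207.H734

open Vale.Agent.P255 (RMetric coefIn Gam Riem innerAt)
open Vale.Agent.P207 Vale.Agent.P207.Q Vale.Agent.P207.H442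

variable {n : ℕ} {M : Type} [TopologicalSpace M] [ChartedSpace (EV n) M]
  [IsManifold 𝓘(ℝ, EV n) ∞ M] {g : RMetric (EV n) M}
variable [NeZero n] [CompactSpace M] [T2Space M] [MeasurableSpace M] [BorelSpace M]
  (D : Kat.Dat g) [Nonempty (Fr g)]

theorem gaugeStmt [ConnectedSpace M] (hn : 2 ≤ n) (h : NegCurvature g) (hs : LocSymmetric g) :
    H832.GaugeStmt D := by
  obtain ⟨Cg, hC, hk⟩ := gauge_stmt D hn h hs
  refine ⟨fun s => Cg (s + 2), fun s => hC _, fun k h2 => ?_⟩
  obtain ⟨w, hw, hwn, hwe⟩ := hk k h2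
  exact ⟨w, hw, hwe, fun s => hwn (s + 2) (by omega)⟩

/-- **(STEP)** -/
theorem stepStmt [ConnectedSpace M] (hn : 2 ≤ n) (h : NegCurvature g) (hs : LocSymmetric g) :
    D.STEPStmt := H832.stepStmt_of_gauge D (gaugeStmt D hn h hs)

end Vale.Agent.P207.H734
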